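import Vale.Agent.P078.Local.Stable.Glue

/-!
# Gluing along levels, and the finish

A level function changing by at most one along the support of `x` gives the gluing with error
`K π² / (8 w²)` for rows of absolute sum `K`. At a valid point, a set of sites which all give
weight at least `p` to one colour has `w - x` positive definite there.
-/

namespace Vale.Agent.P078.Local.Glue

open scoped ComplexConjugate ComplexOrder
open Finset

variable {ι : Type*} [DecidableEq ι] {r : ℕ}
variable {T : Finset ι} {h : ι → Fin r → ℝ} {Z : ι → ℝ} {x : ι → ι → ℂ}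

/-- The angle at level `n` for width `w`. -/
noncomputable def angle (w : ℕ) (n : ℤ) : ℝ :=
  Real.pi / 2 * ((max 0 (min n w) : ℤ) : ℝ) / w

lemma angle_lip {w : ℕ} {m n : ℤ} (h : |m - n| ≤ 1) :
    |angle w m - angle w n| ≤ Real.pi / (2 * w) := by
  have h2 : |(max 0 (min m w) : ℤ) - max 0 (min n w)| ≤ 1 := by
    rw [abs_le] at h ⊢; omega
  have h3 : |((max 0 (min m w) : ℤ) : ℝ) - ((max 0 (min n w) : ℤ) : ℝ)| ≤ 1 := by
    exact_mod_cast h2
  have e : angle w m - angle w n =
      Real.pi / (2 * w) * (((max 0 (min m w) : ℤ) : ℝ) - ((max 0 (min n w) : ℤ) : ℝ)) := by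
    simp only [angle]; ring
  rw [e, abs_mul, abs_of_nonneg (by positivity : (0 : ℝ) ≤ Real.pi / (2 * w))]
  exact mul_le_of_le_one_right (by positivity) h3

omit [DecidableEq ι] in
/-- The quadratic form of a Hermitian matrix is bounded by its absolute row sums. -/
lemma quad_le_rows {E : ι → ι → ℂ} (hE : IsHerm E) {e : ℝ}
    (hrow : ∀ a ∈ T, ∑ b ∈ T, ‖E a b‖ ≤ e) (v : T → ℂ) :
    (∑ a : T, ∑ b : T, conj (v a) * E a b * v b).re ≤ e * ∑ a : T, Complex.normSq (v a) := by
  have hterm : ∀ a b : T, (conj (v a) * E a b * v b).re ≤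
      ‖E a b‖ * ((Complex.normSq (v a) + Complex.normSq (v b)) / 2) := by
    intro a b
    refine (Complex.re_le_norm _).trans ?_
    rw [norm_mul, norm_mul, Complex.norm_conj, mul_comm ‖v a‖, mul_assoc,
      Complex.normSq_eq_norm_sq, Complex.normSq_eq_norm_sq]
    exact mul_le_mul_of_nonneg_left (by nlinarith [two_mul_le_add_sq ‖v a‖ ‖v b‖]) (norm_nonneg _)
  have hsym : ∀ a b : T, ‖E a b‖ = ‖E b a‖ := fun a b => by rw [← hE b a, Complex.norm_conj]
  have hr : ∀ a : T, ∑ b : T, ‖E a b‖ ≤ e := fun a => by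
    rw [Finset.sum_coe_sort T fun b => ‖E a b‖]; exact hrow a a.2
  simp only [Complex.re_sum]
  refine (sum_le_sum fun a _ => sum_le_sum fun b _ => hterm a b).trans ?_
  simp only [mul_div_assoc', mul_add, add_div, sum_add_distrib]
  have h2 : ∑ a : T, ∑ b : T, ‖E a b‖ * Complex.normSq (v b) / 2 =
      ∑ a : T, ∑ b : T, ‖E a b‖ * Complex.normSq (v a) / 2 := by
    rw [sum_comm]
    exact sum_congr rfl fun a _ => sum_congr rfl fun b _ => by rw [hsym b a]
  rw [h2, ← sum_add_distrib, mul_sum]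
  refine sum_le_sum fun a _ => ?_
  rw [← sum_add_distrib]
  simp only [add_halves, ← sum_mul]
  exact mul_le_mul_of_nonneg_right (hr a) (Complex.normSq_nonneg _)

/-- **Gluing along levels**: `S₁` holds the levels below `w`, `S₂` the levels above `0`. -/
theorem valid_glue_levels {S₁ S₂ : Finset ι} {Z₁ Z₂ : ι → ℝ} (hh : IsLaw T h) (h1T : S₁ ⊆ T)
    (h2T : S₂ ⊆ T) (hv₁ : Valid S₁ h Z₁ x) (hv₂ : Valid S₂ h Z₂ x) (d : ι → ℤ) {w : ℕ}
    (hw : 0 < w) (hd : ∀ a ∈ T, ∀ b ∈ T, x a b ≠ 0 → |d a - d b| ≤ 1)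
    (hs₁ : ∀ a ∈ T, d a < w → a ∈ S₁) (hs₂ : ∀ a ∈ T, 0 < d a → a ∈ S₂) {K : ℝ}
    (hK : ∀ a ∈ T, ∑ b ∈ T, ‖x a b‖ ≤ K) {σ : ℝ} (hσ : 0 < σ)
    (h1Z : ∀ a ∈ T, d a < w → Z₁ a + K * Real.pi ^ 2 / (8 * w ^ 2) + σ ≤ Z a)
    (h2Z : ∀ a ∈ T, 0 < d a → Z₂ a + K * Real.pi ^ 2 / (8 * w ^ 2) + σ ≤ Z a) :
    Valid T h Z x := by
  set θ : ι → ℝ := fun a => angle w (d a) with hθ
  have hc0 : ∀ a, d a ≥ w → Real.cos (θ a) = 0 := by
    intro a ha
    have : max (0 : ℤ) (min (d a) w) = w := by omega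
    simp only [hθ, angle, this, Int.cast_natCast]
    rw [mul_div_cancel_right₀ _ (by positivity : (w : ℝ) ≠ 0), Real.cos_pi_div_two]
  have hs0 : ∀ a, d a ≤ 0 → Real.sin (θ a) = 0 := by
    intro a ha
    have : max (0 : ℤ) (min (d a) w) = 0 := by omega
    simp only [hθ, angle]; rw [this]; simp
  set η : ℝ := K * Real.pi ^ 2 / (8 * w ^ 2) with hη
  set E : ι → ι → ℂ := fun a b => x a b - conjBy (fun a => Real.cos (θ a)) x a b
    - conjBy (fun a => Real.sin (θ a)) x a b with hEdef
  have hEH : IsHerm E := fun a b => by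
    simp [hEdef, hv₁.herm a b, hv₁.herm.conjBy _ a b]
  have hrow : ∀ a ∈ T, ∑ b ∈ T, ‖E a b‖ ≤ η := by
    intro a ha
    calc ∑ b ∈ T, ‖E a b‖ ≤ ∑ b ∈ T, (Real.pi ^ 2 / (8 * w ^ 2)) * ‖x a b‖ :=
          sum_le_sum fun b hb => by
            have e : E a b = ((1 - Real.cos (θ a - θ b) : ℝ) : ℂ) * x a b := by
              simp only [hEdef, conjBy, Real.cos_sub]; push_cast; ring
            rw [e, norm_mul, Complex.norm_real, Real.norm_eq_abs,
              abs_of_nonneg (by linarith [Real.cos_le_one (θ a - θ b)])]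
            rcases eq_or_ne (x a b) 0 with hx | hx
            · simp [hx]
            refine mul_le_mul_of_nonneg_right ?_ (norm_nonneg _)
            have h1 := Real.one_sub_sq_div_two_le_cos (x := θ a - θ b)
            have h2 := sq_le_sq.2 ((angle_lip (w := w) (hd a ha b hb hx)).trans (le_abs_self _))
            have h3 : (Real.pi / (2 * w)) ^ 2 = Real.pi ^ 2 / (4 * w ^ 2) := by ring
            rw [h3] at h2
            have h4 : Real.pi ^ 2 / (8 * (w : ℝ) ^ 2) = Real.pi ^ 2 / (4 * w ^ 2) / 2 := by ring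
            simp only [hθ] at h1 ⊢
            linarith
      _ ≤ η := by
          rw [← mul_sum, hη, mul_div_assoc, mul_comm K]
          exact mul_le_mul_of_nonneg_left (hK a ha) (by positivity)
  have := valid_glue (χ₁ := fun a => Real.cos (θ a)) (χ₂ := fun a => Real.sin (θ a)) hh
    (hh.mono h1T) (hh.mono h2T) hv₁ hv₂
    (fun a ha hne => hs₁ a ha (not_le.1 fun h' => hne (hc0 a h')))
    (fun a ha hne => hs₂ a ha (not_le.1 fun h' => hne (hs0 a h')))
    (quad_le_rows hEH hrow) hσ
  refine this.mono hh fun a ha => ?_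
  have hsc := Real.cos_sq_add_sin_sq (θ a)
  rcases le_or_gt (w : ℤ) (d a) with hhi | hlo
  · have h2a := h2Z a ha (by omega)
    rw [hc0 a hhi] at hsc ⊢
    simp only [ne_eq, OfNat.ofNat_ne_zero, not_false_eq_true, zero_pow, zero_add] at hsc
    rw [hsc]; linarith
  rcases le_or_gt (d a) 0 with hlo' | hhi'
  · have h1a := h1Z a ha hlo
    rw [hs0 a hlo'] at hsc ⊢
    simp only [ne_eq, OfNat.ofNat_ne_zero, not_false_eq_true, zero_pow, add_zero] at hsc
    rw [hsc]; linarith
  · have m1 := mul_le_mul_of_nonneg_left (h1Z a ha hlo) (sq_nonneg (Real.cos (θ a)))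
    have m2 := mul_le_mul_of_nonneg_left (h2Z a ha hhi') (sq_nonneg (Real.sin (θ a)))
    rw [show Real.sin (θ a) ^ 2 = 1 - Real.cos (θ a) ^ 2 by linarith] at m2 ⊢
    linarith

/-- At a valid point, every site of positive weight at `c` may take the pure colour `c` if its
diagonal is divided by that weight. -/
theorem valid_all_pure (hh : IsLaw T h) (hv : Valid T h Z x) (hd : ∀ a ∈ T, x a a = 0) {c : Fin r}
    (hpos : ∀ a ∈ T, 0 < h a c) :
    Valid T (fun _ => Pi.single c 1) (fun a => Z a / h a c) x := by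
  suffices key : ∀ J ⊆ T, Valid T (fun a => if a ∈ J then Pi.single c 1 else h a)
      (fun a => if a ∈ J then Z a / h a c else Z a) x by
    refine (valid_congr (fun a ha => ?_) fun a ha => ?_).1 (key T subset_rfl) <;> simp [ha]
  intro J
  induction J using Finset.induction_on with
  | empty => intro _; simpa using hv
  | @insert l J hlJ ih =>
    intro hJ
    have hl : l ∈ T := hJ (mem_insert_self l J)
    have hg : IsLaw T (fun a => if a ∈ J then Pi.single c 1 else h a) := fun a ha => by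
      by_cases hj : a ∈ J
      · refine ⟨fun d => ?_, by simp [hj]⟩
        rcases eq_or_ne d c with rfl | hdc <;> simp [*]
      · simpa [hj] using hh a ha
    have hv' := ih ((subset_insert l J).trans hJ)
    set g : ι → Fin r → ℝ := fun a => if a ∈ J then Pi.single c 1 else h a with hgdef
    set Y : ι → ℝ := fun a => if a ∈ J then Z a / h a c else Z a with hY
    have hlt := sum_m_lt hl hg hv'
    have hm : ∀ d, 0 ≤ m T l g d Y x := m_nonneg hl hg (hv'.erase hg hl) (hd l hl)
    have hgl : g l = h l := by simp [hgdef, hlJ]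
    have hYl : Y l = Z l := by simp [hY, hlJ]
    have hle : h l c * m T l g c Y x < Z l := by
      refine lt_of_le_of_lt ?_ (hYl ▸ hlt)
      rw [← hgl]
      exact single_le_sum (f := fun d => g l d * m T l g d Y x)
        (fun d _ => mul_nonneg ((hg l hl).1 d) (hm d)) (mem_univ c)
    refine (valid_congr (fun a _ => ?_) fun a _ => ?_).1
      ((valid_pure_iff (Z := Function.update Y l (Z l / h l c)) hl hg c).2 ⟨?_, ?_⟩)
    · rcases eq_or_ne a l with rfl | hne
      · simp [Local.pure]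
      · simp [Local.pure, hgdef, hne]
    · rcases eq_or_ne a l with rfl | hne
      · simp
      · simp [hY, hne]
    · exact (valid_congr (fun _ _ => rfl) fun u hu => by
        simp [Function.update_of_ne (Finset.ne_of_mem_erase hu)]).1 (hv'.erase hg hl)
    · rw [Function.update_self, m_congr (h' := g) (Z' := Y) (fun _ _ _ => rfl)
        (fun u _ hne => by simp [Function.update_of_ne hne]), lt_div_iff₀ (hpos l hl)]
      linarith

/-- **Finish**: if `T` is valid at diagonal at most `L` and gives colour `c` weight at least `p`,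
then `L / p - x` is positive definite on `T`. -/
theorem posDef_of_valid (hh : IsLaw T h) (hv : Valid T h Z x) (hd : ∀ a ∈ T, x a a = 0)
    {L p : ℝ} (hp : 0 < p) (hZ0 : ∀ a ∈ T, 0 ≤ Z a) (hZ : ∀ a ∈ T, Z a ≤ L) {c : Fin r}
    (hc : ∀ a ∈ T, p ≤ h a c) :
    (((L / p : ℝ) : ℂ) • (1 : Matrix T T ℂ) - Matrix.of fun a b : T => x a b).PosDef := by
  have hpure : IsLaw T (fun _ : ι => Pi.single (M := fun _ : Fin r => ℝ) c 1) := fun a _ => by
    refine ⟨fun d => ?_, by simp⟩
    rcases eq_or_ne d c with rfl | hdc <;> simp [*]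
  have hv1 := (valid_all_pure hh hv hd fun a ha => lt_of_lt_of_le hp (hc a ha)).mono hpure
    (Z' := fun _ => L / p) fun a ha => div_le_div₀ ((hZ0 a ha).trans (hZ a ha)) (hZ a ha) hp (hc a ha)
  set A := ((L / p : ℝ) : ℂ) • (1 : Matrix T T ℂ) - Matrix.of fun a b : T => x a b with hA
  have hH : A.IsHermitian := by
    refine Matrix.IsHermitian.ext fun a b => ?_
    rcases eq_or_ne a b with rfl | hab
    · simp [hA, hv.herm a a]
    · simp [hA, hab, hab.symm, hv.herm b a]
  refine (Matrix.IsHermitian.posDef_iff_eigenvalues_pos hH).2 fun i => ?_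
  by_contra hle
  set e := hH.eigenvalues i
  have hz : (A - ((e : ℝ) : ℂ) • 1).det = 0 := by
    refine Matrix.exists_mulVec_eq_zero_iff.1 ⟨⇑(hH.eigenvectorBasis i), ?_, ?_⟩
    · intro h0
      exact hH.eigenvectorBasis.orthonormal.ne_zero i (by ext j; exact congrFun h0 j)
    · rw [Matrix.sub_mulVec, Matrix.smul_mulVec, Matrix.one_mulVec, hH.mulVec_eigenvectorBasis i,
        sub_eq_zero, Complex.coe_smul]
  have := (valid_iff.1 hv1).2 (-e) (by linarith [not_lt.1 hle])
  apply this
  rw [q, sum_eq_single (fun _ => c)]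
  · rw [show colMatrix T (fun _ => c) (ofR fun _ => L / p + -e) x = A - ((e : ℝ) : ℂ) • 1 by
      ext a b
      rcases eq_or_ne a b with rfl | hab
      · simp [colMatrix, hA, ofR]; ring
      · simp [colMatrix, hA, hab], hz, mul_zero]
  · intro d _ hd'
    obtain ⟨a, ha⟩ := Function.ne_iff.1 hd'
    rw [prod_eq_zero (mem_univ a) (by simp [Pi.single_eq_of_ne ha]), zero_mul]
  · simp

end Vale.Agent.P078.Local.Glue
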